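import Vale.Agent.Lib.P201.Graded
import Vale.Agent.Lib.P201.Inter

/-!
P201 (Kaplansky's zero-divisor conjecture).

Extension theorem with a free kernel: let `K` be a commutative ring (for instance a field),
`G` a group and `N` a normal subgroup of `G` which is a free group.  If the group algebra
`K[G/N]` has no nonzero zero divisors, then `K[G]` has no nonzero zero divisors.

Proof: filter `K[G]` by the powers of the kernel `I` of `K[G] → K[G/N]`.  Fox calculus shows that
`I` is free as a right module on the elements `x - 1` (`x` in a basis of `N`), which gives that
the associated graded ring has no zero divisors, and a word length argument shows that the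
powers of `I` intersect in zero.
-/

open Vale.Agent.Lib.P194 Vale.Agent.Lib.P201 in
theorem Vale.Agent.Results.P201.FreeKernel.result
    (K : Type*) [CommRing K] (G : Type*) [Group G] (N : Subgroup G) [N.Normal] [IsFreeGroup N]
    (hQ : NoZeroDivisors (MonoidAlgebra K (G ⧸ N))) :
    NoZeroDivisors (MonoidAlgebra K G) := by
  classical
  have b := IsFreeGroup.basis N
  have key : ∀ a : MonoidAlgebra K G, a ≠ 0 →
      ∃ m, a ∈ filt K N m ∧ a ∉ filt K N (m + 1) := by
    intro a ha
    have hex : ∃ m, a ∉ filt K N m := by
      by_contra hcon
      push Not at hcon
      exact ha (iInf_filt_free N b a hcon)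
    have hspec := Nat.find_spec hex
    rcases hm : Nat.find hex with _ | m
    · rw [hm] at hspec
      exact absurd (AddSubgroup.mem_top _) hspec
    · refine ⟨m, ?_, ?_⟩
      · by_contra hcon
        exact Nat.find_min hex (m := m) (by omega) hcon
      · rw [hm] at hspec
        exact hspec
  refine ⟨fun {a c} hac => ?_⟩
  by_contra hne
  push Not at hne
  obtain ⟨m, hm, hm'⟩ := key a hne.1
  obtain ⟨n, hn, hn'⟩ := key c hne.2
  apply graded_domain N b m n a c hm hm' hn hn'
  rw [hac]
  exact zero_mem _
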