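import Vale.Agent.Results.P201.ExtensionByUP
import Vale.Agent.Results.P201.FreeKernel

/-!
P201 (Kaplansky's zero-divisor conjecture).  The two extension theorems for the class of groups
whose group algebra is a domain, stated together, and the mixed tower they give:

1. a unique-product quotient on top of a kernel in the class;
2. a free normal kernel below an arbitrary quotient in the class;
3. free normal subgroup `N`, then a subgroup `ker f` of `G / N` in the class, then a
   unique-product group on top.
-/

namespace Vale.Agent.Results.P201.BothClosures

universe u v w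

theorem result :
    (∀ (R : Type u) (G : Type v) (Q : Type w) [Semiring R] [Group G] [Group Q] [UniqueProds Q]
        (f : G →* Q), NoZeroDivisors (MonoidAlgebra R f.ker) →
          NoZeroDivisors (MonoidAlgebra R G)) ∧
    (∀ (K : Type u) (G : Type v) [CommRing K] [Group G] (N : Subgroup G) [N.Normal]
        [IsFreeGroup N], NoZeroDivisors (MonoidAlgebra K (G ⧸ N)) →
          NoZeroDivisors (MonoidAlgebra K G)) ∧
    (∀ (K : Type u) (G : Type v) (Q : Type w) [CommRing K] [Group G] [Group Q] [UniqueProds Q]
        (N : Subgroup G) [N.Normal] [IsFreeGroup N] (f : G ⧸ N →* Q),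
          NoZeroDivisors (MonoidAlgebra K f.ker) → NoZeroDivisors (MonoidAlgebra K G)) := by
  refine ⟨?_, ?_, ?_⟩
  · intro R G Q _ _ _ _ f h
    exact Vale.Agent.Results.P201.ExtensionByUP.result f h
  · intro K G _ _ N _ _ h
    exact Vale.Agent.Results.P201.FreeKernel.result K G N h
  · intro K G Q _ _ _ _ N _ _ f h
    exact Vale.Agent.Results.P201.FreeKernel.result K G N
      (Vale.Agent.Results.P201.ExtensionByUP.result f h)

end Vale.Agent.Results.P201.BothClosures
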